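import Crest.Agent.X212.Loc8.Red
import Crest.Agent.X212.Qab60.Neck
import Crest.Agent.X212.Dfl49.Ker
import Crest.Agent.X212.Dr59.Hom

/-!
# Row 212 (helper75): a parallel line over a piece with a radial retraction has level zero
-/

set_option autoImplicit false
set_option linter.unusedSectionVars false
noncomputable section
open scoped Manifold ContDiff Topology InnerProductSpace
open MeasureTheory Function Filter Set
open Crest.Agent.R208.F (Ext)
open Crest.Agent.R208.FI (IsDeg)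

namespace Crest.Agent.X212.Inn75
open An Int54
open Num57 hiding c1 c2
open Qab60 (c1 c2)
open Dr59 (SmAt dM df)
open Kah60 (Cut Small gr2)
open Wz78 (SA sm_ind ind_ev)

variable {E : Type} [NormedAddCommGroup E] [NormedSpace ℝ E] [FiniteDimensional ℝ E]
  [MeasurableSpace E] [BorelSpace E]
  {HM : Type} [TopologicalSpace HM] {I : ModelWithCorners ℝ E HM} [I.Boundaryless]
  {M : Type} [TopologicalSpace M] [ChartedSpace HM M] [IsManifold I ∞ M]
  [MeasurableSpace M] [BorelSpace M] [SecondCountableTopology M] [T2Space M]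

theorem exists_glue {α N : Type} [Inhabited N] {U : α → Set M} {u : α → M → N}
    (h : ∀ i j, ∀ x ∈ U i, x ∈ U j → u j x = u i x) : ∃ v : M → N, ∀ i, ∀ x ∈ U i, v x = u i x := by
  classical
  exact ⟨fun x => if k : ∃ i, x ∈ U i then u k.choose x else default, fun i x hx =>
    (dif_pos ⟨i, hx⟩).trans (h _ _ x hx (Exists.choose_spec (p := fun i => x ∈ U i) _))⟩

variable (I) in
/-- local primitives which agree up to a sign -/
structure LP {α : Type} (U : α → Set M) (a f : α → M → Ext E) : Prop where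
  op : ∀ i, IsOpen (U i)
  sm : ∀ i, ∀ x ∈ U i, SmAt I (a i) x
  dg : ∀ i, ∀ x ∈ U i, IsDeg 1 (a i x)
  d : ∀ i, ∀ x ∈ U i, dM I (a i) x = f i x
  cmp : ∀ i j, ∀ x ∈ U i, x ∈ U j → ∃ c : ℝ, a j x = c • a i x ∧ a i x = c • a j x ∧
    f i x = c • f j x

section lp
variable {ι α : Type} [Fintype ι] {F : Fr I M ι} {o : ι → ι → ι → ι → M → ℝ} {U : α → Set M}
  {a f : α → M → Ext E} (h : LP I U a f) {i : α} {x : M}
include h

theorem LP.ev (hx : x ∈ U i) : f i =ᶠ[𝓝 x] dM I (a i) :=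
  ((h.op i).eventually_mem hx).mono fun y hy => (h.d i y hy).symm

theorem LP.sf (hx : x ∈ U i) : SmAt I (f i) x := (h.sm i x hx).dM.congr (h.ev hx)

theorem LP.dg2 (hx : x ∈ U i) : IsDeg 2 (f i x) :=
  h.d i x hx ▸ Dr59.isDeg_dM (((h.op i).eventually_mem hx).mono (h.dg i))

theorem LP.exists_N : ∃ N : M → ℝ, ∀ i, ∀ x ∈ U i, N x = ‖c1 F (a i) x‖ ^ 2 :=
  exists_glue fun i j x hi hj => by
    obtain ⟨c, h1, h2, -⟩ := h.cmp i j x hi hj
    have e : ∀ {i j}, a j x = c • a i x → c1 F (a j) x = c • c1 F (a i) x := fun e =>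
      Map77.fm_ext fun k => by simp [c1, k1, e, e1_smul]
    rw [← real_inner_self_eq_norm_sq, ← real_inner_self_eq_norm_sq]
    nth_rw 1 [e h1]
    nth_rw 3 [e h2]
    rw [real_inner_smul_left, real_inner_smul_right]

theorem LP.sa {N : M → ℝ} (hN : ∀ i, ∀ x ∈ U i, N x = ‖c1 F (a i) x‖ ^ 2) (hx : x ∈ U i) :
    SA I N x := by
  refine (SA.sum Finset.univ fun k _ => (sa_k1 F (h.sm i x hx) k).mul
    (sa_k1 F (h.sm i x hx) k)).congr_of_eventuallyEq (((h.op i).eventually_mem hx).mono fun y hy => ?_)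
  rw [hN i y hy, PiLp.norm_sq_eq_of_L2]
  simp [c1, sq]

theorem LP.zero (H : OK F o) {χ : ℕ → M → ℝ} (hχ : Cut I (⋃ i, U i) χ) (h1 : ∀ n x, |χ n x| ≤ 1)
    {N g k : M → ℝ} (hN : ∀ i, ∀ x ∈ U i, N x = ‖c1 F (a i) x‖ ^ 2)
    (hg : ∀ i, ∀ x ∈ U i, g x = ‖c2 F (f i) x‖ ^ 2)
    (hk : ∀ i, ∀ x ∈ U i, k x = rat (vol F o) (f i * f i) x) (ig : IntegrableOn g (⋃ i, U i) F.μ)
    (hs : Small F.toPre χ N) : ∫ x in ⋃ i, U i, k x ∂F.μ = 0 := by
  have := F.fin
  obtain ⟨b, hb⟩ := exists_glue (U := U) (u := fun i => a i * f i) fun i j x hi hj => by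
    obtain ⟨c, h1, -, h2⟩ := h.cmp i j x hi hj
    rw [Pi.mul_apply, Pi.mul_apply, h1, h2, smul_mul_assoc, mul_smul_comm]
  have eb : ∀ i, ∀ x ∈ U i, b =ᶠ[𝓝 x] a i * f i := fun i x hx =>
    ((h.op i).eventually_mem hx).mono (hb i)
  have oS := isOpen_iUnion h.op
  have mS := oS.measurableSet
  have z : ∀ n x, x ∉ ⋃ i, U i → x ∉ tsupport (χ n) := fun n x hx k => hx (hχ.supp n k)
  have bd : ∀ {u v : M → Ext E} {x}, IsDeg 2 (u x) →
      |rat (vol F o) (u * v) x| ≤ ‖c2 F u x‖ * ‖c2 F v x‖ := fun {u v x} hu => by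
    rw [Qab60.rat_mul H hu, abs_mul, abs_of_pos one_half_pos]
    nlinarith [abs_real_inner_le_norm (c2 F u x) (Qab60.st o x (c2 F v x)),
      Qab60.norm_st_le H x (c2 F v x), norm_nonneg (c2 F u x)]
  have e1 : ∀ n, ∫ x in ⋃ i, U i, χ n x * k x ∂F.μ =
      -∫ x, rat (vol F o) (df I (χ n) * b) x ∂F.μ := fun n => by
    rw [← H.integ_eq, ← integ_fsmul_dM H.ori (hχ.sm n) (hχ.hcs n) fun x hx =>
      (mem_iUnion.1 (hχ.supp n hx)).elim fun i hi => ((h.sm i x hi).mul (h.sf hi)).congr (eb i x hi),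
      H.integ_eq, rat_fsmul]
    refine (setIntegral_congr_fun mS fun x hx => ?_).trans
      (setIntegral_eq_integral_of_forall_compl_eq_zero fun x hx => by
        rw [Pi.mul_apply, image_eq_zero_of_notMem_tsupport (z n x hx), zero_mul])
    obtain ⟨i, hi⟩ := mem_iUnion.1 hx
    simp only [Pi.mul_apply, hk i x hi, rat, Dr59.dM_congr (eb i x hi),
      Dr59.dM_mul Dr59.ne0 (h.sm i x hi) (h.sf hi), Dr59.dM_congr (h.ev hi), (h.sm i x hi).dd,
      h.d i x hi, mul_zero, add_zero]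
  have e2 : ∀ η > 0, ∀ n, |∫ x in ⋃ i, U i, χ n x * k x ∂F.μ| ≤
      η⁻¹ * ∫ x, gr2 F.toPre (χ n) x * N x ∂F.μ + η * ∫ x in ⋃ i, U i, g x ∂F.μ := fun η hη n => by
    have i1 : Integrable (fun x => gr2 F.toPre (χ n) x * N x) F.μ :=
      (Kah60.sm_cut (Kah60.sm_gr2 _ (hχ.sm n)) ((Kah60.tsupport_gr2 _ _).trans (hχ.supp n))
        fun x hx => (mem_iUnion.1 hx).elim fun i => h.sa hN).continuous.integrable_of_hasCompactSupport
        (Kah60.hcs_of_sub (hχ.hcs n) (Kah60.tsupport_gr2 _ _)).mul_right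
    have i2 := (integrable_indicator_iff mS).2 ig
    rw [e1, abs_neg, ← integral_indicator mS, ← integral_const_mul, ← integral_const_mul,
      ← integral_add (i1.const_mul _) (i2.const_mul _)]
    refine norm_integral_le_of_norm_le (f := rat (vol F o) (df I (χ n) * b))
      ((i1.const_mul η⁻¹).add (i2.const_mul η)) (.of_forall fun x => ?_)
    by_cases hx : x ∈ ⋃ i, U i
    · obtain ⟨i, hi⟩ := mem_iUnion.1 hx
      have d1 : IsDeg 1 (df I (χ n) x) := Dr59.isDeg_io _
      have k1 := bd (u := df I (χ n) * a i) (v := f i) (R208.T.isDeg_mul d1 (h.dg i x hi))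
      have k2 := Qab60.norm_c2_mul (F := F) (b := a i) d1
      have k3 : gr2 F.toPre (χ n) x = ‖c1 F (df I (χ n)) x‖ ^ 2 := by
        rw [PiLp.norm_sq_eq_of_L2]; simp [gr2, Qab60.c1_df, sq]
      have k4 : rat (vol F o) (df I (χ n) * b) x = rat (vol F o) (df I (χ n) * a i * f i) x := by
        simp only [rat, Pi.mul_apply, hb i x hi, mul_assoc]
      rw [indicator_of_mem hx, hN i x hi, hg i x hi, k3, k4, ← mul_pow]
      refine k1.trans ((mul_le_mul_of_nonneg_right k2 (norm_nonneg _)).trans ?_)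
      generalize ‖c1 F (df I (χ n)) x‖ * ‖c1 F (a i) x‖ = s, ‖c2 F (f i) x‖ = t
      have := mul_nonneg (inv_pos.2 hη).le (sq_nonneg (s - η * t))
      have e : η⁻¹ * (s - η * t) ^ 2 = η⁻¹ * s ^ 2 + η * t ^ 2 - 2 * s * t := by field_simp; ring
      linarith
    · rw [rat_of_zero (by rw [Pi.mul_apply, Dr59.df_eq_zero
        (notMem_tsupport_iff_eventuallyEq.1 (z n x hx)), zero_mul]), Kah60.gr2_zero _ (z n x hx),
        indicator_of_notMem hx]
      simp
  have ck : ContinuousOn k (⋃ i, U i) := fun x hx => (mem_iUnion.1 hx).elim fun i hi =>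
    ((contMDiffAt_rat le_rfl (H.ori.sm x) (H.ori.ne x) ((h.sf hi).mul (h.sf hi))).continuousAt.congr
      (((h.op i).eventually_mem hi).mono fun y hy => (hk i y hy).symm)).continuousWithinAt
  have t := tendsto_integral_of_dominated_convergence (μ := F.μ.restrict (⋃ i, U i))
    (F := fun n x => χ n x * k x) (f := k) g
    (fun n => ((hχ.sm n).continuous.continuousOn.mul ck).aestronglyMeasurable mS) ig
    (fun n => ae_restrict_of_forall_mem mS fun x hx => by
      obtain ⟨i, hi⟩ := mem_iUnion.1 hx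
      rw [norm_mul, hk i x hi, hg i x hi, sq]
      exact (mul_le_of_le_one_left (norm_nonneg _) (h1 n x)).trans (bd (h.dg2 hi)))
    (ae_restrict_of_forall_mem mS fun x hx => tendsto_const_nhds.congr' <| by
      obtain ⟨O, h1, h2⟩ := hχ.one x hx
      exact h2.mono fun n hn => by simp only [hn x (mem_of_mem_nhds h1), one_mul])
  refine abs_nonpos_iff.1 (ge_of_tendsto (x := 𝓝[>] 0)
    (f := fun η => η * ∫ x in ⋃ i, U i, g x ∂F.μ) (tendsto_nhdsWithin_of_tendsto_nhds
      (Continuous.tendsto' (by fun_prop) _ _ (zero_mul _))) (eventually_nhdsWithin_of_forall fun η hη => ?_))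
  simpa using le_of_tendsto_of_tendsto' t.abs ((hs.const_mul η⁻¹).add_const _) (e2 η hη)

end lp

theorem grow {V : Type} [NormedAddCommGroup V] [InnerProductSpace ℝ V] {u w : ℝ → V} {g : ℝ → ℝ}
    {a b : ℝ} (hab : a ≤ b) (hu : ∀ t ∈ Icc a b, HasDerivAt u (w t) t)
    (hw : ∀ t ∈ Icc a b, ‖w t‖ ^ 2 ≤ g t) (hg : IntegrableOn g (Icc a b)) :
    ‖u b - u a‖ ^ 2 ≤ (b - a) * ∫ t in Icc a b, g t := by
  rcases hab.eq_or_lt with rfl | h
  · simp
  have p := sub_pos.2 h
  have d := fun t ht => (hasDerivAt_const t (u b - u a)).inner ℝ (hu t ht)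
  have := intervalIntegral.sub_le_integral_of_hasDeriv_right_of_le hab
    (φ := fun t => ‖u b - u a‖ ^ 2 / (2 * (b - a)) + (b - a) / 2 * g t)
    (fun t ht => (d t ht).continuousAt.continuousWithinAt)
    (fun t ht => (d t (Ioo_subset_Icc_self ht)).hasDerivWithinAt)
    ((integrableOn_const (by simp)).add (hg.const_mul _)) fun t ht => by
      have h1 := hw t (Ioo_subset_Icc_self ht)
      have h2 := real_inner_le_norm (u b - u a) (w t)
      rw [inner_zero_left, add_zero, div_add' _ _ _ (by positivity), le_div_iff₀ (by positivity)]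
      nlinarith [sq_nonneg (‖u b - u a‖ - (b - a) * ‖w t‖), mul_pos p p]
  rw [← inner_sub_right, real_inner_self_eq_norm_sq, intervalIntegral.integral_add (by simp)
    (((intervalIntegrable_iff_integrableOn_Icc_of_le hab).2 hg).const_mul _),
    intervalIntegral.integral_const, intervalIntegral.integral_const_mul,
    intervalIntegral.integral_of_le hab, ← integral_Icc_eq_integral_Ioc, smul_eq_mul,
    show (b - a) * (‖u b - u a‖ ^ 2 / (2 * (b - a))) = ‖u b - u a‖ ^ 2 / 2 by field_simp] at this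
  linarith

section nk
open Nd18 Dfl49 Cyf70
variable {E3 : Type} [NormedAddCommGroup E3] [NormedSpace ℝ E3] [FiniteDimensional ℝ E3]
  [MeasurableSpace E3] [BorelSpace E3]
  {H3 : Type} [TopologicalSpace H3] {I3 : ModelWithCorners ℝ E3 H3} [I3.Boundaryless]
  {Y : Type} [TopologicalSpace Y] [ChartedSpace H3 Y] [IsManifold I3 ∞ Y] [T2Space Y]
  [MeasurableSpace Y] [BorelSpace Y] [SecondCountableTopology Y] [CompactSpace Y]
  {κ : Type} [Fintype κ] {lam : Type} [Fintype lam] {D : YD I3 Y κ lam}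
  {B : Base M (Option κ) lam} {G : Geo I M (Option κ) lam} {K : Nk D B G} {T : ℝ} {S : Set M}
  (h : One K 1 T S)
include h

theorem src {t : ℝ} (ht : T < t) (y : Y) : (y, t) ∈ K.ψ.source :=
  K.mem_src.2 (h.J (by simpa using ht))

theorem mem_S {t : ℝ} (ht : T < t) (y : Y) : K.ψ (y, t) ∈ S :=
  h.sub (by simpa [K.tm_ψ _ (src h ht y)] using ht)

/-- linear growth is small against logarithmic cut-offs -/
theorem small {V : Type} [NormedAddCommGroup V] [InnerProductSpace ℝ V] {N g : M → ℝ}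
    (cN : ContinuousOn N S) (N0 : ∀ x ∈ S, 0 ≤ N x) (g0 : ∀ x ∈ S, 0 ≤ g x)
    (ig : IntegrableOn g S G.F.μ) (hu : ∀ y, ∃ u w : ℝ → V, ∀ t > T, HasDerivAt u (w t) t ∧
      N (K.ψ (y, t)) = ‖u t‖ ^ 2 ∧ ‖w t‖ ^ 2 ≤ g (K.ψ (y, t))) :
    ∃ χ, Cut I S χ ∧ (∀ n x, |χ n x| ≤ 1) ∧ Small G.F.toPre χ N := by
  have := D.F.fin
  obtain ⟨t₀, h1, hT⟩ : ∃ t₀ : ℝ, 1 ≤ t₀ ∧ T < t₀ :=
    ⟨|T| + 1, by linarith [abs_nonneg T], by linarith [le_abs_self T]⟩
  obtain ⟨C, -, hC⟩ := Qab60.exists_log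
  have r1 : ∀ n : ℕ, t₀ ≤ t₀ + n := fun n => le_add_of_nonneg_right n.cast_nonneg
  have r0 : ∀ n : ℕ, 0 < t₀ + n := fun n => by positivity
  choose l s l0 l1 lm ls ld using fun n : ℕ => hC (t₀ + n) (n + 1) (r0 n) n.cast_add_one_pos
  have s' := fun n => (contDiff_const (c := (1 : ℝ))).sub (s n)
  have tg : ∀ x, T < K.tm x → x ∈ K.ψ.target := fun x hx => K.tgt ▸ h.J (by simpa using hx)
  have e0 : ∀ (n : ℕ) x, K.tm x < t₀ + n → (fun x => 1 - l n (K.tm x)) =ᶠ[𝓝 x] fun _ => 1 := fun n x hx =>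
    (K.cont.continuousAt.eventually_lt_const hx).mono fun y hy => by simp [l0 n _ hy.le]
  have sm : ∀ n, Sm I fun x => 1 - l n (K.tm x) := fun n x => by
    rcases lt_or_ge (K.tm x) (t₀ + n) with k | k
    · exact contMDiffAt_const.congr_of_eventuallyEq (e0 n x k)
    · have m := tg x (hT.trans_le ((r1 n).trans k))
      exact (K.rel'.sm m (sm_snd (s' n) _)).congr_of_eventuallyEq
        ((K.ψ.open_target.eventually_mem m).mono fun y hy => by simp only [K.snd_symm hy])
  set χ : ℕ → M → ℝ := fun n => S.indicator fun x => 1 - l n (K.tm x) with hχ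
  have su : ∀ n, tsupport (χ n) ⊆ S ∩ {x | 1 * K.tm x ≤ (t₀ + n) * Real.exp (n + 1)} := fun n =>
    closure_minimal (fun x hx => by
      have k : x ∈ S := by_contra fun e => hx (indicator_of_notMem e _)
      refine ⟨k, by_contra fun e => hx ?_⟩
      simp only [mem_ofPred, not_le, one_mul] at e
      simp only [hχ, indicator_of_mem k, l1 n _ e.le, sub_self]) (h.cpt _).isClosed
  have c : Cut I S χ := ⟨fun n => sm_ind h.clopen (sm n), fun n => (h.cpt _).of_isClosed_subset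
    (isClosed_tsupport _) (su n), fun n => (su n).trans inter_subset_left, fun x hx =>
      ⟨S ∩ {y | K.tm y < K.tm x + 1}, (h.op.inter (isOpen_lt K.cont continuous_const)).mem_nhds
        ⟨hx, lt_add_one (K.tm x)⟩, by
      filter_upwards [tendsto_natCast_atTop_atTop.eventually_ge_atTop (K.tm x + 1)] with n hn y hy
      simp only [hχ, indicator_of_mem hy.1, l0 n (K.tm y) (by linarith [hy.2.out]), sub_zero]⟩⟩
  have ga : ∀ (n : ℕ) x, K.tm x < t₀ + n → gr2 G.F.toPre (χ n) x = 0 := fun n x hx => by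
    rcases ind_ev h.clopen (fun x => 1 - l n (K.tm x)) x with ⟨-, k⟩ | ⟨-, k⟩
    · simp [gr2, Pre.D_def, hχ, Sob92.dv_congr (k.trans (e0 n x hx))]
    · simp [gr2, Pre.D_def, hχ, Sob92.dv_congr k]
  have gb : ∀ n y t, T < t → gr2 G.F.toPre (χ n) (K.ψ (y, t)) = deriv (l n) t ^ 2 := fun n y t ht => by
    have k := fun a => K.rel.D (src h ht y) a (u := fun z => 1 - l n z.2) (u' := χ n) <| by
      filter_upwards [(isOpen_lt continuous_const continuous_snd).mem_nhds (show T < (y, t).2 from ht)]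
        with z hz
      simp only [hχ, indicator_of_mem (mem_S h hz z.1), K.tm_ψ _ (src h hz z.1)]
    have k1 := congrFun (D_none_snd D.F.toPre (s' n)) (y, t)
    have k2 := fun a => congrFun (D_some_snd D.F.toPre (s' n) a) (y, t)
    simp only [gr2, ← k, Fintype.sum_option]
    erw [k1, Finset.sum_eq_zero fun a _ => by erw [k2, zero_mul]]
    rw [deriv_const_sub]; ring
  refine ⟨χ, c, fun n x => ?_, ?_⟩
  · by_cases k : x ∈ S
    · simp only [hχ, indicator_of_mem k, abs_le]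
      constructor <;> linarith [(lm n (K.tm x)).1, (lm n (K.tm x)).2]
    · simp [hχ, k]
  obtain ⟨A, hA⟩ := isCompact_univ.exists_bound_of_continuousOn (f := fun y => N (K.ψ (y, t₀)))
    (cN.comp (K.ψ.continuousOn.comp (by fun_prop) fun y _ => src h hT y) fun y _ => mem_S h hT y)
  have mT : MeasurableSet (K.tm ⁻¹' Ioi T) := (isOpen_Ioi.preimage K.cont).measurableSet
  have sT : K.tm ⁻¹' Ioi T ⊆ S := fun x hx => h.sub (by simpa using hx)
  have i1 := (Nka63.integrable_iff_prod K fun x hx => indicator_of_notMem (s := K.tm ⁻¹' Ioi T)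
    (fun k => hx (tg x k)) g).1 ((integrable_indicator_iff mT).2 (ig.mono_set sT))
  have p1 : ∀ x, 0 ≤ (K.tm ⁻¹' Ioi T).indicator g x := indicator_nonneg fun x hx => g0 x (sT hx)
  set Ψ : Y → ℝ := fun y => 2 * |A| + 2 * ∫ s in K.J, (K.tm ⁻¹' Ioi T).indicator g (K.ψ (y, s))
  have iΨ : Integrable Ψ D.F.μ := (integrable_const _).add (i1.integral_prod_left.const_mul _)
  have pΨ : ∀ y, 0 ≤ Ψ y := fun y =>
    add_nonneg (by positivity) (mul_nonneg two_pos.le (integral_nonneg fun _ => p1 _))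
  have gr : ∀ᵐ y ∂D.F.μ, ∀ t ≥ t₀, N (K.ψ (y, t)) ≤ Ψ y * t := i1.prod_right_ae.mono fun y hy t ht => by
    obtain ⟨u, w, k⟩ := hu y
    have m : ∀ s ∈ Icc t₀ t, T < s := fun s hs => hT.trans_le hs.1
    have j : Icc t₀ t ⊆ K.J := fun s hs => K.mem_src.1 (src h (m s hs) y)
    have k1 := grow ht (fun s hs => (k s (m s hs)).1) (fun s hs => ((k s (m s hs)).2.2).trans_eq
      (indicator_of_mem (by simpa [K.tm_ψ _ (src h (m s hs) y)] using m s hs) g).symm)
      (IntegrableOn.mono_set hy j)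
    have k2 := setIntegral_mono_set hy (.of_forall fun _ => p1 _) j.eventuallyLE
    have k3 := (le_abs_self _).trans ((hA y trivial).trans (le_abs_self A))
    have k4 : 0 ≤ ∫ s in Icc t₀ t, (K.tm ⁻¹' Ioi T).indicator g (K.ψ (y, s)) :=
      integral_nonneg fun _ => p1 _
    have k5 := norm_le_insert' (u t) (u t₀)
    rw [(k t₀ hT).2.1] at k3
    rw [(k t (hT.trans_le ht)).2.1]
    nlinarith [norm_nonneg (u t), norm_nonneg (u t₀), norm_nonneg (u t - u t₀), abs_nonneg A,
      sq_nonneg (‖u t₀‖ - ‖u t - u t₀‖), mul_le_mul_of_nonneg_left k2 (by linarith : 0 ≤ t)]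
  have lim := (tendsto_one_div_add_atTop_nhds_zero_nat (𝕜 := ℝ)).const_mul ((∫ y, Ψ y ∂D.F.μ) * C ^ 2)
  rw [mul_zero] at lim
  have z : ∀ n x, 0 ≤ gr2 G.F.toPre (χ n) x * N x := fun n x => by
    by_cases k : x ∈ S
    · exact mul_nonneg (Kah60.gr2_nonneg _ _ _) (N0 x k)
    · rw [Kah60.gr2_zero _ fun e => k (c.supp n e), zero_mul]
  refine squeeze_zero (fun n => integral_nonneg (z n)) (fun n => ?_) lim
  have rr : t₀ + n ≤ (t₀ + n) * Real.exp (n + 1) :=
    le_mul_of_one_le_right (r0 n).le (Real.one_le_exp (by positivity))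
  let om := (Icc (t₀ + n) ((t₀ + n) * Real.exp (n + 1))).indicator fun t => (C / (n + 1)) ^ 2 * t⁻¹
  have iw : Integrable om := (integrable_indicator_iff measurableSet_Icc).2
    (continuousOn_const.mul (continuousOn_inv₀.mono fun t ht => ((r0 n).trans_le ht.1).ne')).integrableOn_Icc
  have pw : ∀ t, 0 ≤ om t := indicator_nonneg fun t ht =>
    mul_nonneg (sq_nonneg _) (inv_pos.2 ((r0 n).trans_le ht.1)).le
  rw [Nka63.integral_eq_prod K fun x hx => by
    rw [ga n x ((not_lt.1 fun k => hx (tg x k)).trans_lt (hT.trans_le (r1 n))), zero_mul]]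
  refine (integral_mono_of_nonneg (.of_forall fun _ => z n _) (iΨ.mul_prod iw.integrableOn) ?_).trans ?_
  · filter_upwards [Measure.quasiMeasurePreserving_fst.ae gr,
      Measure.quasiMeasurePreserving_snd.ae (ae_restrict_mem (Nka63.meas_J K))] with ⟨y, t⟩ k1 k2
    rcases lt_or_ge t (t₀ + n) with k | k
    · rw [ga n _ (by rwa [K.tm_ψ _ (K.mem_src.2 k2)]), zero_mul]
      exact mul_nonneg (pΨ _) (pw _)
    rw [gb n y t (hT.trans_le ((r1 n).trans k))]
    by_cases k' : t ∈ Icc (t₀ + n) ((t₀ + n) * Real.exp (n + 1))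
    · have p := (r0 n).trans_le k
      have k3 := pow_le_pow_left₀ (by positivity) (ld n t) 2
      rw [mul_pow, sq_abs, sq_abs, ← le_div_iff₀ (by positivity)] at k3
      refine (mul_le_mul k3 (k1 t ((r1 n).trans k)) (N0 _ (mem_S h (hT.trans_le ((r1 n).trans k)) y))
        (by positivity)).trans_eq ?_
      simp only [om, indicator_of_mem k']
      field_simp
    · rw [image_eq_zero_of_notMem_tsupport fun e => k' (ls n e), zero_pow two_ne_zero, zero_mul]
      exact mul_nonneg (pΨ _) (pw _)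
  rw [integral_prod_mul, mul_assoc]
  refine mul_le_mul_of_nonneg_left ((setIntegral_le_integral iw (.of_forall pw)).trans_eq ?_)
    (integral_nonneg pΨ)
  rw [integral_indicator measurableSet_Icc, integral_Icc_eq_integral_Ioc,
    ← intervalIntegral.integral_of_le rr, intervalIntegral.integral_const_mul,
    integral_inv_of_pos (r0 n) ((r0 n).trans_le rr), mul_div_cancel_left₀ _ (r0 n).ne', Real.log_exp]
  field_simp

end nk

end Crest.Agent.X212.Inn75
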