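import Crest.Agent.X212.Inn75.Lev

/-!
# Row 212 (helper75): radial primitives of the curvature of a parallel line
-/

set_option autoImplicit false
set_option linter.unusedSectionVars false
noncomputable section
open scoped Manifold ContDiff Topology InnerProductSpace
open MeasureTheory Function Filter Set
open Crest.Agent.R208.F (Ext pb ii)
open Crest.Agent.R208.FI (IsDeg)

namespace Crest.Agent.X212.Inn75
open An Int54 Nd18 Dfl49 Cyf70 Abel74
open Num57 hiding c1 c2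
open Qab60 (c1 c2)
open Dr59 (SmAt dM pm mf hk Ht)
open Wz78 (SA nab)
open Loc8 (Rd)

variable {E : Type} [NormedAddCommGroup E] [NormedSpace ℝ E] [FiniteDimensional ℝ E]
  [MeasurableSpace E] [BorelSpace E]
  {HM : Type} [TopologicalSpace HM] {I : ModelWithCorners ℝ E HM} [I.Boundaryless]
  {M : Type} [TopologicalSpace M] [ChartedSpace HM M] [IsManifold I ∞ M]
  [MeasurableSpace M] [BorelSpace M] [SecondCountableTopology M] [T2Space M]

theorem e1_hk {H : M × ℝ → M} {f : M → Ext E} {x : M} {v : E} (h : ∀ s ∈ Icc (0 : ℝ) 1, ∃ r : ℝ,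
    mf (I.prod 𝓘(ℝ, ℝ)) I H (x, s) (v, 0) = r • mf (I.prod 𝓘(ℝ, ℝ)) I H (x, s) (0, 1)) :
    e1 (hk I I H f x) v = 0 := by
  let L : Ext E →L[ℝ] ℝ := LinearMap.toContinuousLinearMap
    ⟨⟨fun c => e1 c v, fun a b => e1_add a b v⟩, fun r a => e1_smul r a v⟩
  change L _ = 0
  rw [hk]
  by_cases k : IntervalIntegrable (fun t => R208.FI.hopL (ContinuousLinearMap.inl ℝ E ℝ)
    ((0, 1) : E × ℝ) (pm (I.prod 𝓘(ℝ, ℝ)) I H f (x, t))) volume 0 1
  swap
  · rw [intervalIntegral.integral_undef k, map_zero]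
  rw [← L.intervalIntegral_comp_comm k]
  refine (intervalIntegral.integral_congr fun s hs => ?_).trans intervalIntegral.integral_zero
  obtain ⟨r, e⟩ := h s (uIcc_of_le (zero_le_one' ℝ) ▸ hs)
  have z : ∀ (c : Ext E) w, e2 c w (r • w) = 0 := fun c w => by
    have := Qab60.e2_vsm c 1 r w w
    rw [one_smul, show e2 c w w = 0 by linarith [e2_swap c w w], mul_zero] at this
    exact this
  change e1 (pb _ (ii _ (pb _ _))) v = 0
  rw [Line51.e1_pb, ← e2_eq, Qab60.e2_pb]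
  exact (congrArg _ e).trans (z _ _)

theorem hk_smul {H : M × ℝ → M} {f g : M → Ext E} {x : M} {c : ℝ}
    (h : ∀ s ∈ Icc (0 : ℝ) 1, g (H (x, s)) = c • f (H (x, s))) : hk I I H g x = c • hk I I H f x := by
  rw [hk, hk, ← intervalIntegral.integral_smul]
  exact intervalIntegral.integral_congr fun s hs => by
    simp only [Dr59.pm_apply, h s (uIcc_of_le (zero_le_one' ℝ) ▸ hs), map_smul]

section rd
variable {ι lam : Type} [Fintype ι] [Fintype lam] {B : Base M ι lam} {G : Geo I M ι lam}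
  {m : Md M ι lam} {W : m.Cn} {ξ η : M → m.A} {O O' : Set M} {x : M} (R : Rd G.F m W O ξ)
  (hB : B.OK I) (hG : G.OK B) (H : m.OK I B) (C : m.IsConn B G W)
include R hB hG H C

theorem fm_eq (hx : x ∈ O) : fm G.F m W η x = (⟪ξ x, η x⟫_ℝ / 16) • fm G.F m W ξ x := by
  have e : ∀ a b, fF G.F m W η a b x = ⟪ξ x, η x⟫_ℝ / 16 * fF G.F m W ξ a b x := fun a b => by
    rw [fF, R.Fg_eq hB hG H C hx, real_inner_smul_left]; ring
  simp only [fm, fm2_apply, e, Finset.smul_sum, smul_smul, mul_left_comm (1 / 2 : ℝ)]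

theorem kd_eq (h4 : Module.finrank ℝ E = 4) (hx : x ∈ O) : -(4 * Real.pi ^ 2) * m.kd B G.F W x =
    rat (vol G.F B.o) (fm G.F m W ξ * fm G.F m W ξ) x := by
  rw [rat_vol_mul G.F h4 ((OK.of_base h4 hB hG).vo' x) (dg_fm x trivial), Md.kd, PiLp.inner_apply]
  simp only [Wz78.idx_apply, R.Fg_eq hB hG H C hx, ContinuousLinearMap.id_apply, inner_sum,
    real_inner_smul_left, real_inner_smul_right, real_inner_self_eq_norm_sq,
    norm_sq H (R.mem x hx) (R.sq x hx), Base.st, Fintype.sum_prod_type, Finset.mul_sum, k2_fm hG C]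
  refine Finset.sum_congr rfl fun a _ => Finset.sum_congr rfl fun b _ => Finset.sum_congr rfl
    fun c _ => Finset.sum_congr rfl fun d _ => ?_
  field_simp
  ring

omit hB hG H in
theorem inner_eq (R' : Rd G.F m W O' η) {P : Set M} (hP : IsPreconnected P) (s : P ⊆ O ∩ O')
    (hx : x ∈ P) : ∀ y ∈ P, ⟪ξ y, η y⟫_ℝ = ⟪ξ x, η x⟫_ℝ :=
  par_eqOn (F := G.F) (A := fun _ _ => (0 : ℝ →L[ℝ] ℝ)) (s := fun y => ⟪ξ y, η y⟫_ℝ)
    (s' := fun _ => ⟪ξ x, η x⟫_ℝ) (R.op.inter R'.op) hP s (fun _ _ _ => contMDiffAt_const)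
    (fun _ _ _ => by simp) (fun y hy => ⟨(R.sm y hy.1).inner (R'.sm y hy.2), fun a => by
      rw [nab, Wz78.dv_inner (e := G.F.e) a (Wz78.adW_skw C a y) (R.sm y hy.1) (R'.sm y hy.2),
        R.par y hy.1, R'.par y hy.2]; simp⟩)
    (fun y _ => ⟨contMDiffAt_const, fun a => by simp [nab]⟩) hx rfl

end rd

variable {E3 : Type} [NormedAddCommGroup E3] [NormedSpace ℝ E3] [FiniteDimensional ℝ E3]
  [MeasurableSpace E3] [BorelSpace E3]
  {H3 : Type} [TopologicalSpace H3] {I3 : ModelWithCorners ℝ E3 H3} [I3.Boundaryless]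
  {Y : Type} [TopologicalSpace Y] [ChartedSpace H3 Y] [IsManifold I3 ∞ Y] [T2Space Y]
  [MeasurableSpace Y] [BorelSpace Y] [SecondCountableTopology Y] [CompactSpace Y]
  {κ : Type} [Fintype κ] {lam : Type} [Fintype lam] {D : YD I3 Y κ lam}
  {B : Base M (Option κ) lam} {G : Geo I M (Option κ) lam} {K : Nk D B G} {T : ℝ} {α : Type}
  {U : α → Set M} {H : M × ℝ → M}

variable (K T U H) in
/-- a retraction onto a curve which is radial on the end -/
structure Rad : Prop where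
  ht : ∀ i, Ht I I (U i) (U i) H
  one : ∀ i, ∀ x ∈ U i, H (x, 1) = x
  zero : ∀ i, ∀ x ∈ U i, ∀ b : M → Ext E, IsDeg 2 (b (H (x, 0))) → pm I I (fun z => H (z, 0)) b x = 0
  ray : ∀ y, ∃ i, ∀ t > T, K.ψ (y, t) ∈ U i
  rad : ∃ ρ : ℝ → ℝ, ∀ t > T, DifferentiableAt ℝ ρ t ∧ ρ t ≠ 0 ∧
    ∀ y, ∀ t' > T, ∀ s, H (K.ψ (y, t'), s) = H (K.ψ (y, t), s * ρ t' / ρ t)

variable (h : One K 1 T (⋃ i, U i)) (r : Rad K T U H)
include h r

theorem Rad.tmp (f : M → Ext E) {i : α} {x : M} (hx : x ∈ U i) (ht : T < K.tm x) :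
    k1 G.F (hk I I H f) none x = 0 := by
  have m : x ∈ K.ψ.target := K.tgt ▸ h.J (by simpa using ht)
  obtain ⟨⟨y, t⟩, z, rfl⟩ := K.ψ.image_source_eq_target.symm.subset m
  rw [K.tm_ψ _ z] at ht
  obtain ⟨ρ, hρ⟩ := r.rad
  obtain ⟨d, n, e⟩ := hρ t ht
  refine e1_hk fun s hs => ⟨s * deriv ρ t / ρ t, ?_⟩
  have dH := ((r.ht i).sm _ hx s hs).mdifferentiableAt Dr59.ne0
  have d0 : MDifferentiableAt 𝓘(ℝ, ℝ) (IC I3) (fun t => (y, t)) t :=
    mdifferentiableAt_const.prodMk mdifferentiableAt_id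
  have d1 := ((K.rel.ld _ z).contMDiffAt.mdifferentiableAt Dr59.ne0)
  have d2 := ((d.hasDerivAt.const_mul s).div_const (ρ t)).hasFDerivAt.hasMFDerivAt
  have q : s * ρ t / ρ t = s := mul_div_cancel_right₀ _ n
  have k1 := Dr59.mf_comp (f := fun t' => (K.ψ (y, t'), s)) (z := t) dH
    ((d1.comp t d0).prodMk mdifferentiableAt_const)
  have k2 := Dr59.mf_comp (f := fun t' => (K.ψ (y, t), s * ρ t' / ρ t)) (z := t) (q.symm ▸ dH)
    (mdifferentiableAt_const.prodMk d2.mdifferentiableAt)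
  rw [Dr59.mf_congr (f := H ∘ fun t' => (K.ψ (y, t'), s)) (y := t)
    (g := H ∘ fun t' => (K.ψ (y, t), s * ρ t' / ρ t))
    ((eventually_gt_nhds ht).mono fun t' h' => e y t' h' s), k2, q,
    Dr59.mf_prodMk mdifferentiableAt_const d2.mdifferentiableAt, Dr59.mf_const, Dr59.mf_of_has d2,
    Dr59.mf_prodMk (f := fun t => K.ψ (y, t)) (d1.comp t d0) mdifferentiableAt_const,
    Dr59.mf_const] at k1
  erw [Dr59.mf_comp d1 d0, Dr59.mf_prodMk mdifferentiableAt_const mdifferentiableAt_id,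
    Dr59.mf_const] at k1
  have k3 := DFunLike.congr_fun k1 1
  simp only [ContinuousLinearMap.comp_apply, ContinuousLinearMap.prod_apply,
    zero_apply, Dr59.mf_id, ContinuousLinearMap.id_apply] at k3
  rw [← map_smul]
  refine ((congrArg (fun v : E => mf (I.prod 𝓘(ℝ, ℝ)) I H (K.ψ (y, t), s) (v, 0))
    (K.iso.e none _ z)).symm.trans k3.symm).trans (congrArg _ ?_)
  simp

/-- **the level of a parallel line vanishes** -/
theorem Rad.lev (hB : B.OK I) (hG : G.OK B) {m : Md M (Option κ) lam} {W : m.Cn} (Hm : m.OK I B)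
    (C : m.IsConn B G W) {ξ : α → M → m.A} (R : ∀ i, Rd G.F m W (U i) (ξ i))
    (hi : IntegrableOn (fun x => ‖m.Fg G.F W x‖ ^ 2) (⋃ i, U i) G.F.μ) :
    ∫ x in ⋃ i, U i, m.kd B G.F W x ∂G.F.μ = 0 := by
  rcases isEmpty_or_nonempty M with q | q
  · simp [integral_of_isEmpty]
  have h4 := h4_of hB hG
  have cl := fun i => (R i).cl_fm hG C
  have L : LP I U (fun i => hk I I H (fm G.F m W (ξ i))) fun i => fm G.F m W (ξ i) := by
    refine ⟨fun i => (R i).op, fun i => (r.ht i).sm_hk (R i).op (cl i).sm,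
      fun i => (r.ht i).dg_hk (cl i).dg, fun i x hx => ?_, fun i j x hi hj => ?_⟩
    · have := (r.ht i).d_hk (R i).op (cl i).sm hx
      rwa [(r.ht i).hk_eq_zero (cl i).cl hx, add_zero, r.zero i x hx _ (dg_fm _ trivial), sub_zero,
        Dr59.pm_of_eventually_id (((R i).op.eventually_mem hx).mono (r.one i))] at this
    have e := inner_eq (R i) C (R j) (P := (fun s => H (x, s)) '' Icc 0 1) (isPreconnected_Icc.image _
      fun s hs => (((r.ht i).sm x hi s hs).continuousAt.comp (by fun_prop)).continuousWithinAt)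
      (by rintro _ ⟨s, hs, rfl⟩; exact ⟨(r.ht i).maps x hi s hs, (r.ht j).maps x hj s hs⟩)
      ⟨1, right_mem_Icc.2 zero_le_one, r.one i x hi⟩
    exact ⟨⟪ξ i x, ξ j x⟫_ℝ / 16, hk_smul fun s hs => e _ ⟨s, hs, rfl⟩ ▸
      fm_eq (R i) hB hG Hm C ((r.ht i).maps x hi s hs), hk_smul fun s hs => e _ ⟨s, hs, rfl⟩ ▸
      real_inner_comm (ξ i _) _ ▸ fm_eq (R j) hB hG Hm C ((r.ht j).maps x hj s hs),
      real_inner_comm (ξ i _) _ ▸ fm_eq (R j) hB hG Hm C hj⟩
  obtain ⟨N, hN⟩ := L.exists_N (F := G.F)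
  have hg : ∀ i, ∀ x ∈ U i, ‖m.Fg G.F W x‖ ^ 2 / 16 = ‖c2 G.F (fm G.F m W (ξ i)) x‖ ^ 2 :=
    fun i x hx => by
      have := (R i).norm_Fg hB hG Hm C hx
      rw [Qab60.c2_smul, Pi.smul_apply, norm_smul, Real.norm_two] at this
      linarith
  obtain ⟨χ, c, c1, s⟩ := small h (V := V1 (Option κ)) (N := N) (g := fun x => ‖m.Fg G.F W x‖ ^ 2 / 16)
    (fun x hx => (mem_iUnion.1 hx).elim fun i hi => (L.sa hN hi).continuousAt.continuousWithinAt)
    (fun x hx => (mem_iUnion.1 hx).elim fun i hi => hN i x hi ▸ sq_nonneg _)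
    (fun x _ => by positivity) (hi.div_const _) fun y => by
      obtain ⟨i, hy⟩ := r.ray y
      refine ⟨fun t => c1 G.F (hk I I H (fm G.F m W (ξ i))) (K.ψ (y, t)), fun t => WithLp.toLp 2
        fun k => k2 G.F (fm G.F m W (ξ i)) none k (K.ψ (y, t)), fun t ht => ⟨?_, hN i _ (hy t ht), ?_⟩⟩
      · refine (PiLp.continuousLinearEquiv 2 ℝ fun _ : Option κ => ℝ).symm.hasFDerivAt.comp_hasDerivAt t
          (hasDerivAt_pi.2 fun k => ?_)
        have z := src h ht y
        have s := (K.rel.sm z (sa_k1 G.F (L.sm i _ (hy t ht)) k)).md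
        have e : k1 G.F (hk I I H (fm G.F m W (ξ i))) none =ᶠ[𝓝 (K.ψ (y, t))] fun _ => 0 := by
          filter_upwards [(R i).op.mem_nhds (hy t ht), K.cont.continuousAt.eventually_const_lt
            (ht.trans_eq (K.tm_ψ _ z).symm)] with x h1 h2 using r.tmp h _ h1 h2
        rw [k2, ← L.d i _ (hy t ht), ← k2, k2_dM G.F (L.sm i _ (hy t ht))
          (((R i).op.eventually_mem (hy t ht)).mono (L.dg i)), Pre.D_def (a := k), Sob92.dv_congr e,
          ← K.rel.D z none (.of_forall fun _ => rfl), Finset.sum_eq_zero fun l _ => by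
            rw [← K.rel.c z]; exact zero_mul _]
        erw [D_none_at _ s]
        simpa using! (s.comp t (mdifferentiableAt_const.prodMk
          mdifferentiableAt_id)).differentiableAt.hasDerivAt
      · refine le_of_le_of_eq ?_ (hg i _ (hy t ht)).symm
        rw [PiLp.norm_sq_eq_of_L2, PiLp.norm_sq_eq_of_L2, Fintype.sum_prod_type]
        exact Finset.single_le_sum
          (f := fun a => ∑ b, ‖k2 G.F (fm G.F m W (ξ i)) a b (K.ψ (y, t))‖ ^ 2)
          (fun _ _ => by positivity) (Finset.mem_univ none)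
  have := L.zero (OK.of_base h4 hB hG) c c1 hN hg (fun i x => kd_eq (R i) hB hG Hm C h4)
    (hi.div_const _) s
  rw [integral_const_mul] at this
  exact (mul_eq_zero.1 this).resolve_left (neg_ne_zero.2 (by positivity))

end Crest.Agent.X212.Inn75
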